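import Vale.Agent.P223.H959.SpecH

/-! The area inequality for a holomorphic map. -/

open scoped ContDiff Manifold Matrix Topology
open MeasureTheory

namespace Vale.Agent.P223.H209

open Vale.Agent.P223.H959

section charts

variable {n : ℕ} {M : Type} [TopologicalSpace M] [MeasurableSpace M] [BorelSpace M]

theorem chart_pre_meas (e : OpenPartialHomeomorph M (Fin n → ℝ)) {T : Set (Fin n → ℝ)}
    (hT : MeasurableSet T) : MeasurableSet (e.source ∩ e ⁻¹' T) := by
  have h1 : e.source ∩ e ⁻¹' T = Subtype.val '' {x : e.source | e x ∈ T} := by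
    ext x
    constructor
    · rintro ⟨hx, hxT⟩
      exact ⟨⟨x, hx⟩, hxT, rfl⟩
    · rintro ⟨⟨y, hy⟩, hyT, rfl⟩
      exact ⟨hy, hyT⟩
  rw [h1]
  apply e.open_source.measurableSet.subtype_image
  have h2 : Continuous (fun x : e.source => e x) := e.continuousOn.domRestrict
  exact h2.measurable hT

theorem meas_of_chart (e : OpenPartialHomeomorph M (Fin n → ℝ)) {B : Set M}
    (hB : B ⊆ e.source) (h : MeasurableSet (e '' B)) : MeasurableSet B := by
  have h1 : B = e.source ∩ e ⁻¹' (e '' B) := by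
    ext x
    constructor
    · intro hx
      exact ⟨hB hx, x, hx, rfl⟩
    · rintro ⟨hx, y, hy, hyx⟩
      rwa [← e.injOn (hB hy) hx hyx]
  rw [h1]
  exact chart_pre_meas e h

theorem null_of_chart [ChartedSpace (Fin n → ℝ) M] {g : RMetric (Fin n) M} {μ : Measure M}
    (hμ : IsVol g μ) {e : OpenPartialHomeomorph M (Fin n → ℝ)} (he : e ∈ atlas (Fin n → ℝ) M)
    {B : Set M} (hB : B ⊆ e.source) (h : volume (e '' B) = 0) : μ B = 0 := by
  set T := toMeasurable volume (e '' B) with hT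
  have hTm : MeasurableSet T := measurableSet_toMeasurable _ _
  have hT0 : volume T = 0 := by rw [hT, measure_toMeasurable]; exact h
  have h1 : B ⊆ e.source ∩ e ⁻¹' T := fun x hx =>
    ⟨hB hx, subset_toMeasurable _ _ ⟨x, hx, rfl⟩⟩
  refine measure_mono_null h1 ?_
  rw [hμ e he _ (chart_pre_meas e hTm) Set.inter_subset_left]
  have h2 : e '' (e.source ∩ e ⁻¹' T) ⊆ T := by
    rintro _ ⟨x, hx, rfl⟩
    exact hx.2
  exact setLIntegral_measure_zero _ _ (measure_mono_null h2 hT0)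

end charts

section area

variable {n : ℕ} {J : Matrix (Fin n) (Fin n) ℝ} {M N : Type}
  [TopologicalSpace M] [ChartedSpace (Fin n → ℝ) M] [MeasurableSpace M] [BorelSpace M]
  [IsManifold 𝓘(ℝ, Fin n → ℝ) ∞ M] [CompactSpace M] [T2Space M]
  [TopologicalSpace N] [ChartedSpace (Fin n → ℝ) N] [MeasurableSpace N] [BorelSpace N]
  [IsManifold 𝓘(ℝ, Fin n → ℝ) ∞ N] [CompactSpace N] [T2Space N] {f : M → N}
  {g : RMetric (Fin n) M} {μ : Measure M} {g0 : RMetric (Fin n) N} {μ0 : Measure N}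

omit [BorelSpace M] [MeasurableSpace M] [IsManifold 𝓘(ℝ, Fin n → ℝ) ∞ M] [CompactSpace M]
  [T2Space M] [MeasurableSpace N] [BorelSpace N] [IsManifold 𝓘(ℝ, Fin n → ℝ) ∞ N]
  [CompactSpace N] [T2Space N] in
theorem img_chart {e : OpenPartialHomeomorph M (Fin n → ℝ)}
    {e' : OpenPartialHomeomorph N (Fin n → ℝ)} {A : Set M} (hAe : A ⊆ e.source) :
    e' '' (f '' A) = cmap f e e' '' (e '' A) := by
  ext y
  constructor
  · rintro ⟨_, ⟨p, hp, rfl⟩, rfl⟩
    refine ⟨e p, ⟨p, hp, rfl⟩, ?_⟩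
    show e' (f (e.symm (e p))) = _
    rw [e.left_inv (hAe hp)]
  · rintro ⟨_, ⟨p, hp, rfl⟩, rfl⟩
    refine ⟨f p, ⟨p, hp, rfl⟩, ?_⟩
    show _ = e' (f (e.symm (e p)))
    rw [e.left_inv (hAe hp)]

/-- the relative Jacobian determinant vanishes exactly where the determinant of the differential
does -/
theorem relJac_iff (hf : HoloMap J f) (g : RMetric (Fin n) M) (g0 : RMetric (Fin n) N)
    {e : OpenPartialHomeomorph M (Fin n → ℝ)} (he : e ∈ atlas (Fin n → ℝ) M)
    {e' : OpenPartialHomeomorph N (Fin n → ℝ)} (he' : e' ∈ atlas (Fin n → ℝ) N) {p : M}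
    (hp : p ∈ e.source) (hp' : f p ∈ e'.source) :
    relJac g g0 f p = 0 ↔ (fderiv ℝ (cmap f e e') (e p)).det = 0 := by
  have hx : e p ∈ e.target := e.map_source hp
  have hx' : f (e.symm (e p)) ∈ e'.source := by rwa [e.left_inv hp]
  have hd : dens (g.mat e) (e p) ≠ 0 := ((g.isMetric e he).dens_pos hx).ne'
  have hd' : dens (g0.mat e') (cmap f e e' (e p)) ≠ 0 := by
    refine ((g0.isMetric e' he').dens_pos ?_).ne'
    exact e'.map_source hx'
  rw [relJac_eq hf g g0 he hp, pden_eq hf g0 he he' hx hx',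
    fderiv_det (hf.smooth e he e' he' _ hx hx'), div_eq_zero_iff, or_iff_left hd, mul_eq_zero,
    or_iff_right hd', abs_eq_zero]

/-- Sard -/
theorem sard (hμ0 : IsVol g0 μ0) (hf : HoloMap J f) (g : RMetric (Fin n) M) :
    μ0 (f '' {p | relJac g g0 f p = 0}) = 0 := by
  set V : M → Set M := fun p => (chartAt (Fin n → ℝ) p).source ∩
    f ⁻¹' (chartAt (Fin n → ℝ) (f p)).source with hV
  obtain ⟨s, hsc, hs⟩ := countable_cover_nhds_of_sigmaCompact (X := M) (f := V) fun p =>
    ((chartAt (Fin n → ℝ) p).open_source.inter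
      ((chartAt (Fin n → ℝ) (f p)).open_source.preimage hf.cont)).mem_nhds
      ⟨mem_chart_source _ _, mem_chart_source _ _⟩
  have h1 : f '' {p | relJac g g0 f p = 0} ⊆ ⋃ p ∈ s, f '' ({q | relJac g g0 f q = 0} ∩ V p) := by
    rintro _ ⟨q, hq, rfl⟩
    have hqs : q ∈ ⋃ p ∈ s, V p := by rw [hs]; exact Set.mem_univ q
    obtain ⟨p, hps, hqp⟩ := Set.mem_iUnion₂.1 hqs
    exact Set.mem_iUnion₂.2 ⟨p, hps, q, ⟨hq, hqp⟩, rfl⟩
  refine measure_mono_null h1 ((measure_biUnion_null_iff hsc).2 fun p _ => ?_)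
  set e := chartAt (Fin n → ℝ) p with he
  set e' := chartAt (Fin n → ℝ) (f p) with he'
  have hea : e ∈ atlas (Fin n → ℝ) M := chart_mem_atlas _ _
  have hea' : e' ∈ atlas (Fin n → ℝ) N := chart_mem_atlas _ _
  refine null_of_chart hμ0 hea' ?_ ?_
  · rintro _ ⟨q, hq, rfl⟩
    exact hq.2.2
  · rw [img_chart (e := e) fun q hq => hq.2.1]
    refine addHaar_image_eq_zero_of_det_fderivWithin_eq_zero volume
      (f' := fun x => fderiv ℝ (cmap f e e') x) ?_ ?_
    · rintro _ ⟨q, hq, rfl⟩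
      have hx : e q ∈ e.target := e.map_source hq.2.1
      have hx' : f (e.symm (e q)) ∈ e'.source := by rw [e.left_inv hq.2.1]; exact hq.2.2
      exact ((hf.smooth e hea e' hea' _ hx hx').differentiableAt
        (by simp)).hasFDerivAt.hasFDerivWithinAt
    · rintro _ ⟨q, hq, rfl⟩
      exact (relJac_iff hf g g0 hea hea' hq.2.1 hq.2.2).1 hq.1

/-- small neighbourhoods of regular points -/
theorem exists_nhds (hf : HoloMap J f) (g : RMetric (Fin n) M) (g0 : RMetric (Fin n) N) {p : M}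
    (hp : relJac g g0 f p ≠ 0) :
    ∃ V : Set M, IsOpen V ∧ p ∈ V ∧ V ⊆ (chartAt (Fin n → ℝ) p).source ∧
      V ⊆ f ⁻¹' (chartAt (Fin n → ℝ) (f p)).source ∧ Set.InjOn f V := by
  set e := chartAt (Fin n → ℝ) p with he
  set e' := chartAt (Fin n → ℝ) (f p) with he'
  have hea : e ∈ atlas (Fin n → ℝ) M := chart_mem_atlas _ _
  have hea' : e' ∈ atlas (Fin n → ℝ) N := chart_mem_atlas _ _
  have hpe : p ∈ e.source := mem_chart_source _ _
  have hpe' : f p ∈ e'.source := mem_chart_source _ _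
  have hx : e p ∈ e.target := e.map_source hpe
  have hx' : f (e.symm (e p)) ∈ e'.source := by rw [e.left_inv hpe]; exact hpe'
  have hdet : (fderiv ℝ (cmap f e e') (e p)).det ≠ 0 := fun h =>
    hp ((relJac_iff hf g g0 hea hea' hpe hpe').2 h)
  have hs : HasStrictFDerivAt (cmap f e e') (fderiv ℝ (cmap f e e') (e p)) (e p) :=
    (hf.smooth e hea e' hea' _ hx hx').hasStrictFDerivAt (by simp)
  have hs' : HasStrictFDerivAt (cmap f e e')
      (((fderiv ℝ (cmap f e e') (e p)).toContinuousLinearEquivOfDetNeZero hdet :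
        (Fin n → ℝ) ≃L[ℝ] (Fin n → ℝ)) : (Fin n → ℝ) →L[ℝ] (Fin n → ℝ)) (e p) := by
    rw [ContinuousLinearMap.coe_toContinuousLinearEquivOfDetNeZero]
    exact hs
  set φ := hs'.toOpenPartialHomeomorph (cmap f e e') with hφ
  refine ⟨(e.source ∩ e ⁻¹' φ.source) ∩ (e.source ∩ f ⁻¹' e'.source),
    (e.isOpen_inter_preimage φ.open_source).inter
      (e.open_source.inter (e'.open_source.preimage hf.cont)),
    ⟨⟨hpe, hs'.mem_toOpenPartialHomeomorph_source⟩, hpe, hpe'⟩,
    fun q hq => hq.1.1, fun q hq => hq.2.2, ?_⟩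
  intro q hq r hr hqr
  have h1 : φ (e q) = φ (e r) := by
    rw [hφ, hs'.toOpenPartialHomeomorph_coe]
    show e' (f (e.symm (e q))) = e' (f (e.symm (e r)))
    rw [e.left_inv hq.1.1, e.left_inv hr.1.1, hqr]
  exact e.injOn hq.1.1 hr.1.1 (φ.injOn hq.1.2 hr.1.2 h1)

theorem image_meas (hf : HoloMap J f)
    {e : OpenPartialHomeomorph M (Fin n → ℝ)} (he : e ∈ atlas (Fin n → ℝ) M)
    {e' : OpenPartialHomeomorph N (Fin n → ℝ)} (he' : e' ∈ atlas (Fin n → ℝ) N) {A : Set M}
    (hA : MeasurableSet A) (hAe : A ⊆ e.source) (hAe' : A ⊆ f ⁻¹' e'.source)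
    (hinj : Set.InjOn f A) : MeasurableSet (f '' A) := by
  refine meas_of_chart e' (by rintro _ ⟨p, hp, rfl⟩; exact hAe' hp) ?_
  rw [img_chart hAe]
  refine measurable_image_of_fderivWithin (f' := fun x => fderiv ℝ (cmap f e e') x)
    (image_measurable e hA hAe) ?_ ?_
  · rintro _ ⟨q, hq, rfl⟩
    have hx : e q ∈ e.target := e.map_source (hAe hq)
    have hx' : f (e.symm (e q)) ∈ e'.source := by rw [e.left_inv (hAe hq)]; exact hAe' hq
    exact ((hf.smooth e he e' he' _ hx hx').differentiableAt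
      (by simp)).hasFDerivAt.hasFDerivWithinAt
  · rintro _ ⟨p, hp, rfl⟩ _ ⟨q, hq, rfl⟩ hpq
    have hpq' : e' (f (e.symm (e p))) = e' (f (e.symm (e q))) := hpq
    rw [e.left_inv (hAe hp), e.left_inv (hAe hq)] at hpq'
    have h2 := e'.injOn (hAe' hp) (hAe' hq) hpq'
    rw [hinj hp hq h2]

/-- The area inequality. -/
theorem area (hJ : J * J = -1) (hμ : IsVol g μ) (hμ0 : IsVol g0 μ0) (hf : HoloMap J f) (d : ℕ)
    (hd : ∀ y : N, (∀ p, f p = y → relJac g g0 f p ≠ 0) → (d : ℕ∞) ≤ (f ⁻¹' {y}).encard) :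
    d * μ0 Set.univ ≤ ∫⁻ p, ENNReal.ofReal (relJac g g0 f p) ∂μ := by
  classical
  haveI : SecondCountableTopology M :=
    ChartedSpace.secondCountable_of_sigmaCompact (Fin n → ℝ) M
  have hq := relJac_continuous hJ hf g g0
  set C : Set M := {p | relJac g g0 f p = 0} with hC
  have hCc : IsClosed C := isClosed_eq hq continuous_const
  set R : Set M := Cᶜ with hR
  have hRo : IsOpen R := hCc.isOpen_compl
  have hfC : μ0 (f '' C) = 0 := sard hμ0 hf g
  have hfCm : MeasurableSet (f '' C) := (hCc.isCompact.image hf.cont).isClosed.measurableSet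
  -- small open neighbourhoods
  have hV : ∀ p : M, ∃ V : Set M, p ∈ R → IsOpen V ∧ p ∈ V ∧
      V ⊆ (chartAt (Fin n → ℝ) p).source ∧
      V ⊆ f ⁻¹' (chartAt (Fin n → ℝ) (f p)).source ∧ Set.InjOn f V ∧ V ⊆ R := by
    intro p
    by_cases hp : p ∈ R
    · obtain ⟨V, h1, h2, h3, h4, h5⟩ := exists_nhds hf g g0 (p := p) hp
      exact ⟨V ∩ R, fun _ => ⟨h1.inter hRo, ⟨h2, hp⟩, fun q hq => h3 hq.1, fun q hq => h4 hq.1,
        h5.mono Set.inter_subset_left, Set.inter_subset_right⟩⟩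
    · exact ⟨∅, fun h => absurd h hp⟩
  choose V hV using hV
  obtain ⟨s, hsR, hsc, hs⟩ := TopologicalSpace.countable_cover_nhdsWithin (s := R) (f := V)
    fun p hp => mem_nhdsWithin_of_mem_nhds ((hV p hp).1.mem_nhds (hV p hp).2.1)
  rcases s.eq_empty_or_nonempty with hse | hsne
  · -- no regular points
    have hR0 : R = ∅ := by
      rw [hse] at hs
      simpa using hs
    have hCu : C = Set.univ := by
      rw [← compl_compl C, ← hR, hR0, Set.compl_empty]
    have h1 : ∀ y, y ∉ f '' C → False ∨ (d : ℕ∞) ≤ 0 := by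
      intro y hy
      right
      have h2 : f ⁻¹' {y} = ∅ := by
        ext p
        simp only [Set.mem_preimage, Set.mem_singleton_iff, Set.mem_empty_iff_false, iff_false]
        intro hp
        exact hy ⟨p, by rw [hCu]; exact Set.mem_univ p, hp⟩
      have h3 := hd y fun p hp => absurd (show p ∈ f ⁻¹' {y} from hp) (by rw [h2]; exact id)
      rwa [h2, Set.encard_empty] at h3
    by_cases hd0 : d = 0
    · rw [hd0]; simp
    · have h2 : (Set.univ : Set N) ⊆ f '' C := by
        intro y _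
        by_contra hy
        rcases h1 y hy with h | h
        · exact h
        · have h3 : d = 0 := by exact_mod_cast le_antisymm h (zero_le)
          exact hd0 h3
      rw [measure_mono_null h2 hfC, mul_zero]
      exact zero_le
  obtain ⟨a, ha⟩ := hsc.exists_eq_range hsne
  have haR : ∀ k, a k ∈ R := fun k => hsR (by rw [ha]; exact ⟨k, rfl⟩)
  set W : ℕ → Set M := fun k => V (a k) with hW
  set A : ℕ → Set M := disjointed W with hAd
  have hWo : ∀ k, IsOpen (W k) := fun k => (hV _ (haR k)).1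
  have hAm : ∀ k, MeasurableSet (A k) := fun k =>
    MeasurableSet.disjointed (fun k => (hWo k).measurableSet) k
  have hAW : ∀ k, A k ⊆ W k := fun k => disjointed_subset W k
  have hAu : ⋃ k, A k = R := by
    rw [hAd, iUnion_disjointed]
    apply Set.Subset.antisymm
    · exact Set.iUnion_subset fun k => (hV _ (haR k)).2.2.2.2.2
    · rw [ha, Set.biUnion_range] at hs
      exact hs
  have hAdj : Pairwise (Function.onFun Disjoint A) := disjoint_disjointed W
  have hAinj : ∀ k, Set.InjOn f (A k) := fun k => (hV _ (haR k)).2.2.2.2.1.mono (hAW k)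
  have hfA : ∀ k, MeasurableSet (f '' A k) := fun k =>
    image_meas hf (chart_mem_atlas _ (a k)) (chart_mem_atlas _ (f (a k))) (hAm k)
      ((hAW k).trans (hV _ (haR k)).2.2.1) ((hAW k).trans (hV _ (haR k)).2.2.2.1) (hAinj k)
  have hloc2 : ∀ k, ∫⁻ p in A k, ENNReal.ofReal (relJac g g0 f p) ∂μ = μ0 (f '' A k) := fun k =>
    cover_local hJ hμ hμ0 hf (chart_mem_atlas _ (a k)) (chart_mem_atlas _ (f (a k))) (hAm k)
      ((hAW k).trans (hV _ (haR k)).2.2.1) ((hAW k).trans (hV _ (haR k)).2.2.2.1) (hAinj k) (hfA k)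
  have h0 : ∫⁻ p in R, ENNReal.ofReal (relJac g g0 f p) ∂μ ≤
      ∫⁻ p, ENNReal.ofReal (relJac g g0 f p) ∂μ := setLIntegral_le_lintegral _ _
  refine le_trans ?_ h0
  rw [← hAu, lintegral_iUnion hAm hAdj]
  simp only [hloc2]
  have h3 : ∀ k, μ0 (f '' A k) = ∫⁻ y, (f '' A k).indicator 1 y ∂μ0 := fun k => by
    rw [lintegral_indicator_one (hfA k)]
  simp only [h3]
  rw [← lintegral_tsum fun k => (measurable_one.indicator (hfA k)).aemeasurable]
  have h4 : ∀ y, y ∉ f '' C → (d : ENNReal) ≤ ∑' k, (f '' A k).indicator (1 : N → ENNReal) y := by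
    intro y hy
    set S : Set ℕ := {k | y ∈ f '' A k} with hS
    have e1 : ∀ k, (f '' A k).indicator (1 : N → ENNReal) y =
        S.indicator (fun _ => (1 : ENNReal)) k := by
      intro k
      by_cases hk : y ∈ f '' A k
      · rw [Set.indicator_of_mem hk, Set.indicator_of_mem (show k ∈ S from hk)]; rfl
      · rw [Set.indicator_of_notMem hk, Set.indicator_of_notMem (show k ∉ S from hk)]
    simp only [e1]
    rw [← _root_.tsum_subtype, ENNReal.tsum_set_one]
    have hyR : ∀ p, f p = y → p ∈ R := fun p hp hpC => hy ⟨p, hpC, hp⟩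
    have e2 : (f ⁻¹' {y}).encard ≤ S.encard := by
      have hk : ∀ p : M, ∃ k, f p = y → p ∈ A k := fun p => by
        by_cases hp : f p = y
        · have : p ∈ ⋃ k, A k := by rw [hAu]; exact hyR p hp
          obtain ⟨k, hk⟩ := Set.mem_iUnion.mp this
          exact ⟨k, fun _ => hk⟩
        · exact ⟨0, fun h => absurd h hp⟩
      choose κ hκ using hk
      have hinj : Set.InjOn κ (f ⁻¹' {y}) := by
        intro p hp q hq hpq
        have h5 : q ∈ A (κ p) := by rw [hpq]; exact hκ q hq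
        exact hAinj _ (hκ p hp) h5 ((hp : f p = y).trans (hq : f q = y).symm)
      have himg : κ '' (f ⁻¹' {y}) ⊆ S := by
        rintro _ ⟨p, hp, rfl⟩
        exact ⟨p, hκ p hp, hp⟩
      rw [← hinj.encard_image]
      exact Set.encard_le_encard himg
    have e3 : (d : ℕ∞) ≤ S.encard := (hd y fun p hp => hyR p hp).trans e2
    calc (d : ENNReal) = (((d : ℕ∞)) : ENNReal) := by simp
      _ ≤ ((S.encard : ℕ∞) : ENNReal) := by exact_mod_cast e3
  calc (d : ENNReal) * μ0 Set.univ = ∫⁻ _y, (d : ENNReal) ∂μ0 := by rw [lintegral_const]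
    _ ≤ ∫⁻ y, ∑' k, (f '' A k).indicator (1 : N → ENNReal) y ∂μ0 := by
      refine lintegral_mono_ae ?_
      have h5 : ∀ᵐ y ∂μ0, y ∉ f '' C := measure_eq_zero_iff_ae_notMem.1 hfC
      filter_upwards [h5] with y hy
      exact h4 y hy

end area

theorem specArea : SpecArea := by
  intro n J M N _ _ _ _ _ _ _ _ _ _ _ _ _ _ f g μ g0 μ0 d hJ hμ hμ0 hf hd
  exact area hJ hμ hμ0 hf d hd

end Vale.Agent.P223.H209
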