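import Vale.Agent.P223.H959.SpecH

/-! From the notions of `K` to the notions of the area inequality. -/

open scoped ContDiff Manifold Matrix
open MeasureTheory

namespace Vale.Agent.P223.H209

open Vale.Agent.P223.H959

theorem specKHol : SpecKHol := by
  intro n A X Y _ _ _ _ _ _ _ _ _ _ c c' hc hc' f d g g0 hg hg0 hf
  letI i1 := toCS hc
  letI i2 := toCS hc'
  haveI := isManifold_of_atl hc
  haveI := isManifold_of_atl hc'
  -- the two descriptions of smoothness
  have hsm : ∀ a b x, x ∈ (c' a).target → f ((c' a).symm x) ∈ (c b).source →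
      (∀ i, DifferentiableAt ℝ (fun z => cmap f (c' a) (c b) z i) x) ∧
      ContDiffAt ℝ ∞ (cmap f (c' a) (c b)) x ∧
      jac (cmap f (c' a) (c b)) x * A = A * jac (cmap f (c' a) (c b)) x := by
    intro a b x hx hfx
    obtain ⟨h1, h2⟩ := hf.2 a b _ x _ (Kat_symm hx) (Kat_coe hfx)
    have h3 : ContDiffAt ℝ ∞ (cmap f (c' a) (c b)) x := contDiffAt_pi.2 h1
    have h4 : ∀ i, DifferentiableAt ℝ (fun z => cmap f (c' a) (c b) z i) x := fun i =>
      ContDiffAt.differentiableAt (h1 i) (by simp)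
    have h5 : K.jac (fun z => c b (f ((c' a).symm z))) x = jac (cmap f (c' a) (c b)) x :=
      Kjac_eq h4
    rw [h5] at h2
    exact ⟨h4, h3, h2⟩
  have hHM : HoloMap A f := by
    refine ⟨hf.1, ?_, ?_⟩
    · rintro _ ⟨a, rfl⟩ _ ⟨b, rfl⟩ x hx hfx
      exact (hsm a b x hx hfx).2.1
    · rintro _ ⟨a, rfl⟩ _ ⟨b, rfl⟩ x hx hfx
      exact (hsm a b x hx hfx).2.2
  refine ⟨hHM, fun hd y hy => hd y fun a b p x y' hp hx hy' => ?_⟩
  have h1 := hy p hp
  have hpa : p ∈ (c' a).source := hx.1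
  have he : c' a ∈ atlas (Fin n → ℝ) Y := ⟨a, rfl⟩
  have he' : c b ∈ atlas (Fin n → ℝ) X := ⟨b, rfl⟩
  rw [relJac_eq hHM _ _ he hpa, hx.2] at h1
  have hxt : x ∈ (c' a).target := by rw [← hx.2]; exact (c' a).map_source hpa
  have hsx : (c' a).symm x = p := by rw [← hx.2, (c' a).left_inv hpa]
  have hfx : f ((c' a).symm x) ∈ (c b).source := by rw [hsx, hp]; exact hy'.1
  have h2 : pden (toRM hc hg0) f (c' a) x ≠ 0 := fun h => h1 (by rw [h, zero_div])
  rw [pden_eq hHM _ he he' hxt hfx] at h2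
  have h3 := abs_ne_zero.1 (right_ne_zero_of_mul h2)
  have h5 : K.jac (fun z => c b (f ((c' a).symm z))) x = jac (cmap f (c' a) (c b)) x :=
    Kjac_eq (hsm a b x hxt hfx).1
  rw [h5]
  exact h3

end Vale.Agent.P223.H209
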