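import Vale.Agent.P223.H959.Spec

/-! The complex Hessian in real coordinates. -/

open scoped Manifold ContDiff ComplexOrder Matrix Topology

namespace Vale.Agent.P223.H209

open Vale.Agent.P223.H959

open Vale.Agent.P272.K (Cm Chart IsHermitian IsKahler cHess dz dzb)

variable {m : ℕ}

/-- second derivative -/
noncomputable def D2 (f : Cm m → ℝ) (z : Cm m) (u v : Cm m) : ℝ :=
  fderiv ℝ (fun y => fderiv ℝ f y v) z u

theorem ev_diff {f : Cm m → ℝ} {z : Cm m} (hf : ContDiffAt ℝ ∞ f z) :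
    ∀ᶠ y in 𝓝 z, DifferentiableAt ℝ f y := by
  have h1 : ContDiffAt ℝ 1 f z := hf.of_le (by exact_mod_cast le_top)
  filter_upwards [h1.eventually (by simp)] with y hy
  exact hy.differentiableAt (by simp)

theorem diff_fderiv {f : Cm m → ℝ} {z : Cm m} (hf : ContDiffAt ℝ ∞ f z) :
    DifferentiableAt ℝ (fderiv ℝ f) z := by
  have h0 : ContDiffAt ℝ 2 f z := hf.of_le (WithTop.coe_le_coe.2 (le_top : (2 : ℕ∞) ≤ ⊤))
  have h1 : ContDiffAt ℝ 1 (fderiv ℝ f) z := h0.fderiv_right (m := 1) (by norm_num)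
  exact h1.differentiableAt (by simp)

theorem diff_fderiv_apply {f : Cm m → ℝ} {z : Cm m} (hf : ContDiffAt ℝ ∞ f z) (v : Cm m) :
    DifferentiableAt ℝ (fun y => fderiv ℝ f y v) z :=
  (diff_fderiv hf).clm_apply (differentiableAt_const v)

theorem fderiv_ofReal {f : Cm m → ℝ} {y : Cm m} (hf : DifferentiableAt ℝ f y) (v : Cm m) :
    fderiv ℝ (fun y => (f y : ℂ)) y v = ((fderiv ℝ f y v : ℝ) : ℂ) := by
  have h1 : HasFDerivAt (fun y => (f y : ℂ)) (Complex.ofRealCLM.comp (fderiv ℝ f y)) y :=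
    Complex.ofRealCLM.hasFDerivAt.comp y hf.hasFDerivAt
  rw [h1.fderiv]
  rfl

theorem dzb_eq {f : Cm m → ℝ} {y : Cm m} (hf : DifferentiableAt ℝ f y) (k : Fin m) :
    dzb k (fun y => (f y : ℂ)) y =
      (((fderiv ℝ f y (Pi.single k 1) : ℝ) : ℂ) +
        Complex.I * ((fderiv ℝ f y (Pi.single k Complex.I) : ℝ) : ℂ)) / 2 := by
  unfold dzb
  rw [fderiv_ofReal hf, fderiv_ofReal hf]

theorem fderiv_comb {a b : Cm m → ℝ} {z : Cm m} (ha : DifferentiableAt ℝ a z)
    (hb : DifferentiableAt ℝ b z) (v : Cm m) :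
    fderiv ℝ (fun y => ((a y : ℂ) + Complex.I * (b y : ℂ)) / 2) z v =
      (((fderiv ℝ a z v : ℝ) : ℂ) + Complex.I * ((fderiv ℝ b z v : ℝ) : ℂ)) / 2 := by
  have h1 : HasFDerivAt (fun y => (a y : ℂ)) (Complex.ofRealCLM.comp (fderiv ℝ a z)) z :=
    Complex.ofRealCLM.hasFDerivAt.comp z ha.hasFDerivAt
  have h2 : HasFDerivAt (fun y => (b y : ℂ)) (Complex.ofRealCLM.comp (fderiv ℝ b z)) z :=
    Complex.ofRealCLM.hasFDerivAt.comp z hb.hasFDerivAt
  have h3 := (h1.add (h2.const_mul Complex.I)).mul_const ((2 : ℂ)⁻¹)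
  have h4 : (fun y => ((a y : ℂ) + Complex.I * (b y : ℂ)) / 2) =
      fun y => ((a y : ℂ) + Complex.I * (b y : ℂ)) * (2 : ℂ)⁻¹ := by
    funext y; rw [div_eq_mul_inv]
  rw [h4]
  have h5 := h3.fderiv
  simp only [Pi.add_apply] at h5
  erw [h5]
  simp only [smul_apply, add_apply,
    ContinuousLinearMap.comp_apply, Complex.ofRealCLM_apply, smul_eq_mul]
  rw [div_eq_mul_inv, mul_comm]

theorem cHess_apply {f : Cm m → ℝ} {z : Cm m} (hf : ContDiffAt ℝ ∞ f z) (j k : Fin m) :
    cHess f z j k =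
      (((D2 f z (Pi.single j 1) (Pi.single k 1) +
          D2 f z (Pi.single j Complex.I) (Pi.single k Complex.I)) / 4 : ℝ) : ℂ) +
      (((D2 f z (Pi.single j 1) (Pi.single k Complex.I) -
          D2 f z (Pi.single j Complex.I) (Pi.single k 1)) / 4 : ℝ) : ℂ) * Complex.I := by
  have h1 : (dzb k fun y => (f y : ℂ)) =ᶠ[𝓝 z] fun y =>
      (((fderiv ℝ f y (Pi.single k 1) : ℝ) : ℂ) +
        Complex.I * ((fderiv ℝ f y (Pi.single k Complex.I) : ℝ) : ℂ)) / 2 := by
    filter_upwards [ev_diff hf] with y hy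
    exact dzb_eq hy k
  show dz j (dzb k fun y => (f y : ℂ)) z = _
  unfold dz
  rw [h1.fderiv_eq, fderiv_comb (diff_fderiv_apply hf _) (diff_fderiv_apply hf _),
    fderiv_comb (diff_fderiv_apply hf _) (diff_fderiv_apply hf _)]
  unfold D2
  push_cast
  have hI : Complex.I * Complex.I = -1 := Complex.I_mul_I
  ring_nf
  rw [show Complex.I ^ 2 = -1 from Complex.I_sq]
  ring

theorem pd_pd {f : Cm m → ℝ} {x : Fin (m + m) → ℝ} (hf : ContDiffAt ℝ ∞ f ((toReal m).symm x))
    (a b : Fin (m + m)) :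
    pd a (fun y => pd b (fun z => f ((toReal m).symm z)) y) x =
      D2 f ((toReal m).symm x) ((toReal m).symm (Pi.single a 1))
        ((toReal m).symm (Pi.single b 1)) := by
  have h1 : (fun y => pd b (fun z => f ((toReal m).symm z)) y) =ᶠ[𝓝 x] fun y =>
      (fun w => fderiv ℝ f w ((toReal m).symm (Pi.single b 1))) ((toReal m).symm y) := by
    have h2 := (toReal m).symm.continuous.continuousAt.eventually (ev_diff hf)
    filter_upwards [h2] with y hy
    unfold pd
    have h3 : HasFDerivAt (fun z => f ((toReal m).symm z))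
        ((fderiv ℝ f ((toReal m).symm y)).comp ((toReal m).symm : (Fin (m + m) → ℝ) →L[ℝ] Cm m))
        y := hy.hasFDerivAt.comp y (toReal m).symm.hasFDerivAt
    rw [h3.fderiv]
    rfl
  unfold pd at h1 ⊢
  rw [h1.fderiv_eq]
  have h4 : HasFDerivAt
      (fun y => (fun w => fderiv ℝ f w ((toReal m).symm (Pi.single b 1))) ((toReal m).symm y))
      ((fderiv ℝ (fun w => fderiv ℝ f w ((toReal m).symm (Pi.single b 1)))
        ((toReal m).symm x)).comp ((toReal m).symm : (Fin (m + m) → ℝ) →L[ℝ] Cm m)) x :=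
    (diff_fderiv_apply hf _).hasFDerivAt.comp x (toReal m).symm.hasFDerivAt
  rw [h4.fderiv]
  rfl

theorem symm_left (k : Fin m) :
    (toReal m).symm (Pi.single (Fin.castAdd m k) 1) = Pi.single k 1 := by
  funext j
  rw [toReal_symm]
  have h1 : (Pi.single (Fin.castAdd m k) (1 : ℝ) : Fin (m + m) → ℝ) (Fin.natAdd m j) = 0 := by
    rw [Pi.single_apply, if_neg]
    intro h
    have := congrArg Fin.val h
    simp only [Fin.val_natAdd, Fin.val_castAdd] at this
    omega
  rw [h1]
  rcases eq_or_ne j k with h | h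
  · subst h; simp
    rfl
  · have h2 : (Pi.single (Fin.castAdd m k) (1 : ℝ) : Fin (m + m) → ℝ) (Fin.castAdd m j) = 0 := by
      rw [Pi.single_apply, if_neg]
      intro h'
      exact h (Fin.castAdd_injective m m h')
    rw [h2, Pi.single_apply, if_neg h]
    rfl

theorem symm_right (k : Fin m) :
    (toReal m).symm (Pi.single (Fin.natAdd m k) 1) = Pi.single k Complex.I := by
  funext j
  rw [toReal_symm]
  have h1 : (Pi.single (Fin.natAdd m k) (1 : ℝ) : Fin (m + m) → ℝ) (Fin.castAdd m j) = 0 := by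
    rw [Pi.single_apply, if_neg]
    intro h
    have := congrArg Fin.val h
    simp only [Fin.val_natAdd, Fin.val_castAdd] at this
    omega
  rw [h1]
  rcases eq_or_ne j k with h | h
  · subst h; simp
    rfl
  · have h2 : (Pi.single (Fin.natAdd m k) (1 : ℝ) : Fin (m + m) → ℝ) (Fin.natAdd m j) = 0 := by
      rw [Pi.single_apply, if_neg]
      intro h'
      exact h (Fin.natAdd_injective m m h')
    rw [h2, Pi.single_apply, if_neg h]
    rfl

theorem blk_mul (A B C D A' B' C' D' : Matrix (Fin m) (Fin m) ℝ) :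
    blk A B C D * blk A' B' C' D' =
      blk (A * A' + B * C') (A * B' + B * D') (C * A' + D * C') (C * B' + D * D') := by
  unfold blk
  rw [Matrix.submatrix_mul_equiv, Matrix.fromBlocks_multiply]

theorem blk_transpose (A B C D : Matrix (Fin m) (Fin m) ℝ) :
    (blk A B C D)ᵀ = blk Aᵀ Cᵀ Bᵀ Dᵀ := by
  unfold blk
  rw [Matrix.transpose_submatrix, Matrix.fromBlocks_transpose]

theorem blk_add (A B C D A' B' C' D' : Matrix (Fin m) (Fin m) ℝ) :
    blk A B C D + blk A' B' C' D' = blk (A + A') (B + B') (C + C') (D + D') := by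
  unfold blk
  rw [← Matrix.fromBlocks_add]
  rfl

theorem blk_smul (r : ℝ) (A B C D : Matrix (Fin m) (Fin m) ℝ) :
    r • blk A B C D = blk (r • A) (r • B) (r • C) (r • D) := by
  unfold blk
  rw [← Matrix.fromBlocks_smul]
  rfl

theorem blk_ext (R : Matrix (Fin (m + m)) (Fin (m + m)) ℝ) :
    R = blk (R.submatrix (Fin.castAdd m) (Fin.castAdd m)) (R.submatrix (Fin.castAdd m) (Fin.natAdd m))
      (R.submatrix (Fin.natAdd m) (Fin.castAdd m)) (R.submatrix (Fin.natAdd m) (Fin.natAdd m)) := by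
  ext i j
  refine Fin.addCases (fun i => ?_) (fun i => ?_) i <;>
    refine Fin.addCases (fun j => ?_) (fun j => ?_) j <;>
    simp only [blk, Matrix.submatrix_apply, finSumFinEquiv_symm_apply_castAdd,
      finSumFinEquiv_symm_apply_natAdd, Matrix.fromBlocks_apply₁₁, Matrix.fromBlocks_apply₁₂,
      Matrix.fromBlocks_apply₂₁, Matrix.fromBlocks_apply₂₂]

theorem specHess : SpecHess := by
  intro m f x hf
  set R : Matrix (Fin (m + m)) (Fin (m + m)) ℝ :=
    Matrix.of (fun a b => pd a (fun y => pd b (fun z => f ((toReal m).symm z)) y) x) with hR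
  rw [blk_ext R]
  unfold stdJ realM
  rw [blk_transpose, blk_mul, blk_mul, blk_add, blk_smul, blk_smul]
  simp only [Matrix.transpose_zero, Matrix.transpose_neg, Matrix.transpose_one, Matrix.zero_mul,
    Matrix.mul_zero, Matrix.neg_mul, Matrix.mul_neg, Matrix.one_mul, Matrix.mul_one, zero_add,
    add_zero, neg_neg]
  have e11 : ∀ j k, R (Fin.castAdd m j) (Fin.castAdd m k) =
      D2 f ((toReal m).symm x) (Pi.single j 1) (Pi.single k 1) := fun j k => by
    rw [hR, Matrix.of_apply, pd_pd hf, symm_left, symm_left]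
  have e12 : ∀ j k, R (Fin.castAdd m j) (Fin.natAdd m k) =
      D2 f ((toReal m).symm x) (Pi.single j 1) (Pi.single k Complex.I) := fun j k => by
    rw [hR, Matrix.of_apply, pd_pd hf, symm_left, symm_right]
  have e21 : ∀ j k, R (Fin.natAdd m j) (Fin.castAdd m k) =
      D2 f ((toReal m).symm x) (Pi.single j Complex.I) (Pi.single k 1) := fun j k => by
    rw [hR, Matrix.of_apply, pd_pd hf, symm_left, symm_right]
  have e22 : ∀ j k, R (Fin.natAdd m j) (Fin.natAdd m k) =
      D2 f ((toReal m).symm x) (Pi.single j Complex.I) (Pi.single k Complex.I) := fun j k => by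
    rw [hR, Matrix.of_apply, pd_pd hf, symm_right, symm_right]
  congr 1
  · ext j k
    simp only [Matrix.smul_apply, Matrix.map_apply, Matrix.add_apply, Matrix.submatrix_apply, e11,
      e22, cHess_apply hf, smul_eq_mul, Complex.add_re, Complex.ofReal_re, Complex.mul_re,
      Complex.ofReal_im, Complex.I_re, Complex.I_im]
    ring
  · ext j k
    simp only [Matrix.smul_apply, Matrix.map_apply, Matrix.add_apply, Matrix.submatrix_apply, e12,
      e21, cHess_apply hf, smul_eq_mul, Complex.add_im, Complex.ofReal_re, Complex.mul_im,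
      Complex.ofReal_im, Complex.I_re, Complex.I_im, Matrix.neg_apply]
    ring
  · ext j k
    simp only [Matrix.smul_apply, Matrix.map_apply, Matrix.add_apply, Matrix.submatrix_apply, e12,
      e21, cHess_apply hf, smul_eq_mul, Complex.add_im, Complex.ofReal_re, Complex.mul_im,
      Complex.ofReal_im, Complex.I_re, Complex.I_im, Matrix.neg_apply]
    ring
  · ext j k
    simp only [Matrix.smul_apply, Matrix.map_apply, Matrix.add_apply, Matrix.submatrix_apply, e11,
      e22, cHess_apply hf, smul_eq_mul, Complex.add_re, Complex.ofReal_re, Complex.mul_re,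
      Complex.ofReal_im, Complex.I_re, Complex.I_im]
    ring

end Vale.Agent.P223.H209
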