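import Vale.Agent.P223.H959.SpecV
import Mathlib.MeasureTheory.Measure.Lebesgue.Complex
import Mathlib.MeasureTheory.Constructions.Pi

/-! Block L1 (`SpecLeb`): taking real and imaginary parts preserves Lebesgue measure. -/

open MeasureTheory

namespace Vale.Agent.P223.H209

open Vale.Agent.P272.K (Cm)
open Vale.Agent.P223.H959 (toReal toReal_left toReal_right SpecLeb)

theorem specLeb : SpecLeb := by
  intro m
  have hmeas : Measurable (toReal m) := (toReal m).continuous.measurable
  refine ⟨hmeas, ?_⟩
  have hvol : (volume : Measure (Fin (m + m) → ℝ)) = Measure.pi fun _ => volume := rfl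
  rw [hvol]
  refine Eq.symm (Measure.pi_eq fun s hs => ?_)
  rw [Measure.map_apply hmeas (MeasurableSet.univ_pi hs)]
  have hpre : (toReal m) ⁻¹' (Set.univ.pi s) = Set.univ.pi fun j : Fin m =>
      Complex.measurableEquivRealProd ⁻¹' (s (Fin.castAdd m j) ×ˢ s (Fin.natAdd m j)) := by
    ext z
    simp only [Set.mem_preimage, Set.mem_pi, Set.mem_univ, true_implies, Set.mem_prod]
    constructor
    · intro h j
      have h1 := h (Fin.castAdd m j)
      have h2 := h (Fin.natAdd m j)
      rw [toReal_left] at h1
      rw [toReal_right] at h2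
      exact ⟨h1, h2⟩
    · intro h i
      refine Fin.addCases (fun j => ?_) (fun j => ?_) i
      · rw [toReal_left]; exact (h j).1
      · rw [toReal_right]; exact (h j).2
  rw [hpre]
  have hvol2 : (volume : Measure (Cm m)) = Measure.pi fun _ => volume := rfl
  rw [hvol2, Measure.pi_pi, Fin.prod_univ_add, ← Finset.prod_mul_distrib]
  refine Finset.prod_congr rfl fun j _ => ?_
  rw [Complex.volume_preserving_equiv_real_prod.measure_preimage
    ((hs _).prod (hs _)).nullMeasurableSet]
  exact Measure.prod_prod _ _

end Vale.Agent.P223.H209
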