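import Vale.Agent.P223.H209.Hess

/-! The Ricci tensor of a Kähler metric. -/

open scoped Manifold ContDiff ComplexOrder Matrix Topology

namespace Vale.Agent.P223.H209

open Vale.Agent.P223.H959

open Vale.Agent.P272.K (Cm Chart IsHermitian IsKahler cHess)

section real

variable {n : ℕ}

/-- a symmetric matrix with zero quadratic form is zero -/
theorem eq_zero_of_quad {T : Matrix (Fin n) (Fin n) ℝ} (hT : Tᵀ = T)
    (h : ∀ v : Fin n → ℝ, v ⬝ᵥ T *ᵥ v = 0) : T = 0 := by
  have h1 : ∀ a b, (Pi.single a 1 : Fin n → ℝ) ⬝ᵥ T *ᵥ (Pi.single b 1) = T a b := by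
    intro a b
    rw [Matrix.mulVec_single_one, single_one_dotProduct]
    rfl
  ext a b
  have h2 := h (Pi.single a 1 + Pi.single b 1)
  rw [Matrix.mulVec_add, add_dotProduct, dotProduct_add, dotProduct_add, h1, h1, h1, h1] at h2
  have h3 := h (Pi.single a 1)
  have h4 := h (Pi.single b 1)
  rw [h1] at h3 h4
  have h5 : T b a = T a b := congrFun (congrFun hT a) b
  rw [Matrix.zero_apply]
  linarith

/-- the trace pairing with a rank one matrix -/
theorem sum_vecMulVec (v : Fin n → ℝ) (S : Matrix (Fin n) (Fin n) ℝ) :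
    ∑ c, ∑ d, Matrix.vecMulVec v v c d * S c d = v ⬝ᵥ S *ᵥ v := by
  unfold dotProduct
  refine Finset.sum_congr rfl fun c _ => ?_
  have h1 : (S *ᵥ v) c = ∑ d, S c d * v d := rfl
  rw [h1, Finset.mul_sum]
  refine Finset.sum_congr rfl fun d _ => ?_
  rw [Matrix.vecMulVec_apply]
  ring

variable {JJ : Matrix (Fin n) (Fin n) ℝ} {U : Set (Fin n → ℝ)}
  {g : (Fin n → ℝ) → Matrix (Fin n) (Fin n) ℝ} {x : Fin n → ℝ}

/-- the trace identity for a constant metric -/
theorem trace_zero (hJ : JJ * JJ = -1) (hU : IsOpen U) (hg : IsMetricOn U g)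
    (hH : ∀ x ∈ U, JJᵀ * g x * JJ = g x)
    (hK : ∀ x ∈ U, ∀ a b c, pd a (fun y => (JJᵀ * g y) b c) x + pd b (fun y => (JJᵀ * g y) c a) x
      + pd c (fun y => (JJᵀ * g y) a b) x = 0) (hx : x ∈ U)
    {W : Matrix (Fin n) (Fin n) ℝ} (hW : W.PosDef) (hWJ : JJ * W * JJᵀ = W) :
    ∑ c, ∑ d, W c d * (Matrix.of (fun a b => pd a (fun y => pd b (fun z => Real.log (dens g z)) y) x)
      + Matrix.of (ricci g x)) c d = 0 := by
  have hdet : IsUnit W.det := hW.det_pos.ne'.isUnit
  have hG : IsMetricOn U (fun _ => W⁻¹) := ⟨fun a b => contDiffOn_const, fun _ _ => hW.inv⟩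
  have hinv : (W⁻¹)⁻¹ = W := Matrix.nonsing_inv_nonsing_inv _ hdet
  have hJT : JJᵀ * JJᵀ = -1 := by
    rw [← Matrix.transpose_mul, hJ, Matrix.transpose_neg, Matrix.transpose_one]
  have hGJ : ∀ y ∈ U, JJᵀ * (fun _ : Fin n → ℝ => W⁻¹) y * JJ = (fun _ => W⁻¹) y := by
    intro y _
    show JJᵀ * W⁻¹ * JJ = W⁻¹
    have h1 : (JJᵀ * W⁻¹ * JJ) * W = 1 := by
      calc (JJᵀ * W⁻¹ * JJ) * W = (JJᵀ * W⁻¹ * JJ) * (JJ * W * JJᵀ) := by rw [hWJ]
        _ = JJᵀ * W⁻¹ * (JJ * JJ) * W * JJᵀ := by simp only [Matrix.mul_assoc]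
        _ = - (JJᵀ * (W⁻¹ * W) * JJᵀ) := by
          rw [hJ]; simp only [Matrix.mul_neg, Matrix.mul_one, Matrix.neg_mul, Matrix.mul_assoc]
        _ = - (JJᵀ * JJᵀ) := by rw [Matrix.nonsing_inv_mul _ hdet, Matrix.mul_one]
        _ = 1 := by rw [hJT, neg_neg]
    exact (Matrix.inv_eq_left_inv h1).symm
  have h := hess_trace hG hg hU hx hJ hGJ hH hK
  simp only [hinv] at h
  simp only [Matrix.add_apply, Matrix.of_apply, mul_add, Finset.sum_add_distrib]
  rw [h, neg_add_cancel]

/-- the Hessian of the logarithm of the density of a Kähler metric -/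
theorem hess_add (hJ : JJ * JJ = -1) (hU : IsOpen U) (hg : IsMetricOn U g)
    (hH : ∀ x ∈ U, JJᵀ * g x * JJ = g x)
    (hK : ∀ x ∈ U, ∀ a b c, pd a (fun y => (JJᵀ * g y) b c) x + pd b (fun y => (JJᵀ * g y) c a) x
      + pd c (fun y => (JJᵀ * g y) a b) x = 0) (hx : x ∈ U)
    (hsym : ∀ a b, ricci g x a b = ricci g x b a)
    (hinv : JJᵀ * Matrix.of (ricci g x) * JJ = Matrix.of (ricci g x)) :
    Matrix.of (fun a b => pd a (fun y => pd b (fun z => Real.log (dens g z)) y) x) +
      JJᵀ * Matrix.of (fun a b => pd a (fun y => pd b (fun z => Real.log (dens g z)) y) x) * JJ =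
      (-2 : ℝ) • Matrix.of (ricci g x) := by
  set Hs : Matrix (Fin n) (Fin n) ℝ :=
    Matrix.of (fun a b => pd a (fun y => pd b (fun z => Real.log (dens g z)) y) x) with hHs
  set Rc : Matrix (Fin n) (Fin n) ℝ := Matrix.of (ricci g x) with hRc
  have hHsT : Hsᵀ = Hs := by
    ext a b
    rw [Matrix.transpose_apply, hHs, Matrix.of_apply, Matrix.of_apply]
    exact pd_comm (hg.sm_logdens hU hx) b a
  have hRcT : Rcᵀ = Rc := by
    ext a b
    rw [Matrix.transpose_apply, hRc, Matrix.of_apply, Matrix.of_apply]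
    exact hsym b a
  set W0 := (g x)⁻¹ with hW0
  have hW0p : W0.PosDef := (hg.posDef x hx).inv
  have hW0J : JJ * W0 * JJᵀ = W0 := hg.J_inv hx hJ hH
  have h0 := trace_zero hJ hU hg hH hK hx hW0p hW0J
  have key : ∀ v : Fin n → ℝ, v ⬝ᵥ ((Hs + Rc) + JJᵀ * (Hs + Rc) * JJ) *ᵥ v = 0 := by
    intro v
    set W1 := W0 + (Matrix.vecMulVec v v + Matrix.vecMulVec (JJ *ᵥ v) (JJ *ᵥ v)) with hW1
    have hps : ∀ u : Fin n → ℝ, (Matrix.vecMulVec u u).PosSemidef := by
      intro u
      have := Matrix.posSemidef_vecMulVec_self_star u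
      rwa [star_trivial] at this
    have hW1p : W1.PosDef := hW0p.add_posSemidef ((hps _).add (hps _))
    have hc : ∀ u : Fin n → ℝ, JJ * Matrix.vecMulVec u u * JJᵀ =
        Matrix.vecMulVec (JJ *ᵥ u) (JJ *ᵥ u) := by
      intro u
      rw [Matrix.mul_vecMulVec, Matrix.vecMulVec_mul, Matrix.vecMul_transpose]
    have hJv : JJ *ᵥ (JJ *ᵥ v) = -v := by
      rw [Matrix.mulVec_mulVec, hJ, Matrix.neg_mulVec, Matrix.one_mulVec]
    have hW1J : JJ * W1 * JJᵀ = W1 := by
      rw [hW1, Matrix.mul_add, Matrix.add_mul, hW0J, Matrix.mul_add, Matrix.add_mul, hc, hc, hJv]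
      rw [Matrix.neg_vecMulVec, Matrix.vecMulVec_neg, neg_neg]
      rw [add_comm (Matrix.vecMulVec (JJ *ᵥ v) (JJ *ᵥ v))]
    have h1 := trace_zero hJ hU hg hH hK hx hW1p hW1J
    rw [← hHs, ← hRc] at h0 h1
    have h2 : ∑ c, ∑ d, W1 c d * (Hs + Rc) c d = ∑ c, ∑ d, W0 c d * (Hs + Rc) c d +
        (∑ c, ∑ d, Matrix.vecMulVec v v c d * (Hs + Rc) c d +
          ∑ c, ∑ d, Matrix.vecMulVec (JJ *ᵥ v) (JJ *ᵥ v) c d * (Hs + Rc) c d) := by
      simp only [← Finset.sum_add_distrib]
      refine Finset.sum_congr rfl fun c _ => Finset.sum_congr rfl fun d _ => ?_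
      rw [hW1]
      simp only [Matrix.add_apply]
      ring
    rw [h1, h0, zero_add, sum_vecMulVec, sum_vecMulVec] at h2
    have h3 : v ⬝ᵥ (JJᵀ * (Hs + Rc) * JJ) *ᵥ v = (JJ *ᵥ v) ⬝ᵥ (Hs + Rc) *ᵥ (JJ *ᵥ v) := by
      rw [Matrix.mul_assoc, ← Matrix.mulVec_mulVec, ← Matrix.mulVec_mulVec,
        Matrix.dotProduct_mulVec v JJᵀ, Matrix.vecMul_transpose]
    rw [Matrix.add_mulVec, dotProduct_add, h3]
    exact h2.symm
  have hT : ((Hs + Rc) + JJᵀ * (Hs + Rc) * JJ)ᵀ = (Hs + Rc) + JJᵀ * (Hs + Rc) * JJ := by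
    rw [Matrix.transpose_add, Matrix.transpose_mul, Matrix.transpose_mul, Matrix.transpose_add,
      hHsT, hRcT, Matrix.transpose_transpose, Matrix.mul_assoc]
  have hz := eq_zero_of_quad hT key
  have h4 : (Hs + Rc) + JJᵀ * (Hs + Rc) * JJ = (Hs + JJᵀ * Hs * JJ) + (Rc + Rc) := by
    rw [Matrix.mul_add, Matrix.add_mul, hinv]
    abel
  rw [h4] at hz
  have h5 := eq_neg_of_add_eq_zero_left hz
  rw [h5]
  ext a b
  simp only [Matrix.neg_apply, Matrix.add_apply, Matrix.smul_apply, smul_eq_mul]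
  ring

end real

section complex

variable {m : ℕ} {X : Type} [TopologicalSpace X] [ChartedSpace (Cm m) X]

theorem realM_neg (A : Matrix (Fin m) (Fin m) ℂ) : realM (-A) = - realM A := by
  have h1 : (-A).map Complex.re = -(A.map Complex.re) := by
    ext i j; simp
  have h2 : (-A).map Complex.im = -(A.map Complex.im) := by
    ext i j; simp
  unfold realM
  rw [h1, h2, blk_smul, blk_smul]
  ext i j
  rw [Matrix.neg_apply]
  refine Fin.addCases (fun i => ?_) (fun i => ?_) i <;>
    refine Fin.addCases (fun j => ?_) (fun j => ?_) j <;>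
    simp only [blk, Matrix.submatrix_apply, finSumFinEquiv_symm_apply_castAdd,
      finSumFinEquiv_symm_apply_natAdd, Matrix.fromBlocks_apply₁₁, Matrix.fromBlocks_apply₁₂,
      Matrix.fromBlocks_apply₂₁, Matrix.fromBlocks_apply₂₂, Matrix.smul_apply, Matrix.neg_apply,
      smul_eq_mul] <;> ring

/-- closedness in terms of the derivatives of the bundle -/
theorem kah_pd {n : ℕ} {X : Type} [TopologicalSpace X] {JJ : Matrix (Fin n) (Fin n) ℝ}
    {c : X → K.Ch n X} {g : X → (Fin n → ℝ) → Matrix (Fin n) (Fin n) ℝ} (hg : K.Herm JJ c g)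
    (hK : K.Kah JJ c g) (a : X) : ∀ x ∈ (c a).target, ∀ i j k,
      pd i (fun y => (JJᵀ * g a y) j k) x + pd j (fun y => (JJᵀ * g a y) k i) x
        + pd k (fun y => (JJᵀ * g a y) i j) x = 0 := by
  intro x hx i j k
  have h1 := hK a _ x (Kat_symm hx) i j k
  have hm := herm_metricOn hg a
  have hsm : ∀ p q, Sm (fun y => (JJᵀ * g a y) p q) x := by
    intro p q
    have e1 : (fun y => (JJᵀ * g a y) p q) = fun y => ∑ r, JJᵀ p r * g a y r q := by
      funext y
      exact Matrix.mul_apply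
    rw [e1]
    exact Sm.sum fun r _ => (Sm.const _).mul (hm.sm (c a).open_target hx r q)
  rw [← Kpd_eq (hsm j k).diff, ← Kpd_eq (hsm k i).diff, ← Kpd_eq (hsm i j).diff]
  exact h1

theorem realAtlas_target (a : X) (x : Fin (m + m) → ℝ) (hx : x ∈ (realAtlas m X a).target) :
    (toReal m).symm x ∈ (chartAt (Cm m) a).target := by
  unfold realAtlas at hx
  rw [OpenPartialHomeomorph.trans_target] at hx
  exact hx.2

theorem specRic (hA : SpecRicJ) (hAlg : SpecAlg) (hHerm : SpecHerm) (hKah : SpecKah) :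
    SpecRic := by
  intro m X _ _ _ χ hχ a p x hpx
  set e := chartAt (Cm m) a with he
  have hh := hHerm m X χ hχ.toIsHermitian
  have hk := hKah m X χ hχ
  have hm := herm_metricOn hh a
  have hU := (realAtlas m X a).open_target
  have hx : x ∈ (realAtlas m X a).target := by
    rw [← hpx.2]
    exact (realAtlas m X a).map_source hpx.1
  have hH : ∀ y ∈ (realAtlas m X a).target,
      (stdJ m)ᵀ * realG χ a y * stdJ m = realG χ a y := fun y _ => hAlg.inv m _
  have hK := kah_pd hh hk a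
  obtain ⟨hsym, hinv⟩ := hA _ (stdJ m) _ _ (hAlg.sqr m) hU hm hH hK x hx
  have h1 := hess_add (hAlg.sqr m) hU hm hH hK hx hsym hinv
  -- the density
  have hat : ∀ y ∈ (realAtlas m X a).target,
      P272.K.At e (e.symm ((toReal m).symm y)) ∧ e (e.symm ((toReal m).symm y)) = (toReal m).symm y := by
    intro y hy
    have h2 := realAtlas_target a y hy
    exact ⟨⟨chart_mem_atlas _ _, e.map_target h2⟩, e.right_inv h2⟩
  have hdens : ∀ y ∈ (realAtlas m X a).target, Real.log (dens (realG χ a) y) =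
      Real.log (2 ^ m) + Real.log (χ e ((toReal m).symm y)).det.re := by
    intro y hy
    obtain ⟨h2, h3⟩ := hat y hy
    have h4 : (χ e ((toReal m).symm y)).PosDef := by
      have := hχ.posDef e _ h2
      rwa [h3] at this
    have h5 : 0 < (χ e ((toReal m).symm y)).det.re := by
      have := h4.det_pos
      exact (Complex.pos_iff.1 this).1
    unfold dens
    have h6 : (realG χ a y).det = (2 ^ m * (χ e ((toReal m).symm y)).det.re) ^ 2 :=
      hAlg.det m _ h4
    rw [h6, Real.sqrt_sq (by positivity), Real.log_mul (by positivity) h5.ne']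
  set f : Cm m → ℝ := fun z => Real.log (χ e z).det.re with hf
  have hev : ∀ y ∈ (realAtlas m X a).target,
      (fun z => Real.log (dens (realG χ a) z)) =ᶠ[𝓝 y]
        fun z => Real.log (2 ^ m) + f ((toReal m).symm z) := by
    intro y hy
    filter_upwards [hU.mem_nhds hy] with z hz
    exact hdens z hz
  have hfs : ∀ y ∈ (realAtlas m X a).target, Sm (fun z => f ((toReal m).symm z)) y := by
    intro y hy
    have h2 := hm.sm_logdens hU hy
    have h3 : Sm (fun z => Real.log (dens (realG χ a) z) - Real.log (2 ^ m)) y :=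
      h2.sub (Sm.const _)
    refine h3.congr_of_eventuallyEq ?_
    filter_upwards [hev y hy] with z hz
    rw [hz]; ring
  have hpd : ∀ y ∈ (realAtlas m X a).target, ∀ b,
      pd b (fun z => Real.log (dens (realG χ a) z)) y = pd b (fun z => f ((toReal m).symm z)) y := by
    intro y hy b
    rw [pd_congr (hev y hy), pd_add (Sm.const _) (hfs y hy), pd_const, zero_add]
  have hpd2 : Matrix.of (fun a' b => pd a' (fun y => pd b
      (fun z => Real.log (dens (realG χ a) z)) y) x) =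
      Matrix.of (fun a' b => pd a' (fun y => pd b (fun z => f ((toReal m).symm z)) y) x) := by
    ext a' b
    rw [Matrix.of_apply, Matrix.of_apply]
    apply pd_congr
    filter_upwards [hU.mem_nhds hx] with y hy
    exact hpd y hy b
  have hfz : ContDiffAt ℝ ∞ f ((toReal m).symm x) := by
    have h2 : f = (fun y => f ((toReal m).symm y)) ∘ (toReal m) := by
      funext z
      show f z = f ((toReal m).symm (toReal m z))
      rw [ContinuousLinearEquiv.symm_apply_apply]
    rw [h2]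
    refine ContDiffAt.comp _ ?_ (toReal m).contDiff.contDiffAt
    rw [ContinuousLinearEquiv.apply_symm_apply]
    exact hfs x hx
  have h3 := specHess m f x hfz
  rw [hpd2, ← h3] at h1
  have h4 : K.ric (realG χ a) x = Matrix.of (ricci (realG χ a) x) := by
    ext a' b
    exact Kric_eq hm hU hx a' b
  rw [h4, realM_neg]
  have h5 : (2 : ℝ) • (Matrix.of (ricci (realG χ a) x) + realM (cHess f ((toReal m).symm x))) = 0 := by
    rw [smul_add, h1]
    ext a' b
    simp only [Matrix.add_apply, Matrix.smul_apply, smul_eq_mul, Matrix.zero_apply]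
    ring
  have h6 := (smul_eq_zero.1 h5).resolve_left (by norm_num)
  exact eq_neg_of_add_eq_zero_left h6

end complex

end Vale.Agent.P223.H209
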